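import Mathlib
import Vale.Agent.P069.Final

namespace Vale.Agent.Results.P069.Counterexample

section

variable {X : Type} [NormedAddCommGroup X] [NormedSpace ℝ X]

variable (X) in
/-- `cof(X)`: the closed subspaces of `X` of finite codimension. -/
abbrev Cof : Type :=
  {F : Submodule ℝ X // IsClosed (F : Set X) ∧ FiniteDimensional ℝ (X ⧸ F)}

/-- `N` is an equivalent norm on `X`. -/
def IsEquivNorm (N : Seminorm ℝ X) : Prop :=
  ∃ a b : ℝ, 0 < a ∧ ∀ x : X, a * ‖x‖ ≤ N x ∧ N x ≤ b * ‖x‖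

/-- The asymptotic uniform convexity modulus of `N` at `t`:
inf over `N x = 1`, sup over `F` in `cof(X)`, inf over `y ∈ F` with `N y = 1`,
of `N (x + t y) - 1`. -/
noncomputable def aucModulus (N : Seminorm ℝ X) (t : ℝ) : EReal :=
  ⨅ x : {x : X // N x = 1}, ⨆ F : Cof X, ⨅ y : {y : X // y ∈ F.1 ∧ N y = 1},
    ((N (x.1 + t • y.1) - 1 : ℝ) : EReal)

/-- The asymptotic midpoint uniform convexity modulus of `N` at `t`:
inf over `N x = 1`, sup over `F` in `cof(X)`, inf over `y ∈ F` with `N y = 1`,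
of `max (N (x + t y)) (N (x - t y)) - 1`. -/
noncomputable def amucModulus (N : Seminorm ℝ X) (t : ℝ) : EReal :=
  ⨅ x : {x : X // N x = 1}, ⨆ F : Cof X, ⨅ y : {y : X // y ∈ F.1 ∧ N y = 1},
    ((max (N (x.1 + t • y.1)) (N (x.1 - t • y.1)) - 1 : ℝ) : EReal)

/-- `N` is asymptotically uniformly convex. -/
def IsAUC (N : Seminorm ℝ X) : Prop := ∀ t : ℝ, 0 < t → 0 < aucModulus N t

/-- `N` is asymptotically midpoint uniformly convex. -/
def IsAMUC (N : Seminorm ℝ X) : Prop := ∀ t : ℝ, 0 < t → 0 < amucModulus N t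

variable (X) in
/-- `X` has an equivalent asymptotically uniformly convex norm. -/
def AUCRenormable : Prop := ∃ N : Seminorm ℝ X, IsEquivNorm N ∧ IsAUC N

variable (X) in
/-- `X` is reflexive: the canonical map into the bidual is onto. -/
def IsReflexive : Prop := Function.Surjective (NormedSpace.inclusionInDoubleDual ℝ X)

end

/-- There is a separable infinite-dimensional reflexive real Banach space whose own norm is
asymptotically midpoint uniformly convex, with modulus at least `t ^ 2 / 96` for `0 < t ≤ 1`,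
and which has no equivalent asymptotically uniformly convex norm. -/
theorem result :
    ∃ (X : Type) (_ : NormedAddCommGroup X) (_ : NormedSpace ℝ X),
      CompleteSpace X ∧ TopologicalSpace.SeparableSpace X ∧ ¬ FiniteDimensional ℝ X ∧
      IsReflexive X ∧
      IsAMUC (normSeminorm ℝ X) ∧
      (∀ t : ℝ, 0 < t → t ≤ 1 →
        ((t ^ 2 / 96 : ℝ) : EReal) ≤ amucModulus (normSeminorm ℝ X) t) ∧
      ¬ AUCRenormable X := by
  have key : ∀ t : ℝ, 0 < t → ((t ^ 2 / (32 * (2 + t)) : ℝ) : EReal) ≤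
      amucModulus (normSeminorm ℝ Vale.Agent.P069.X) t := by
    intro t ht
    refine le_iInf fun x => ?_
    obtain ⟨F, h1, h2, h3⟩ := Vale.Agent.P069.X_mid x.1 x.2 t ht
    refine le_iSup_of_le ⟨F, h1, h2⟩ (le_iInf fun y => ?_)
    exact EReal.coe_le_coe_iff.2 (h3 y.1 y.2.1 y.2.2)
  refine ⟨Vale.Agent.P069.X, inferInstance, inferInstance, inferInstance,
    Vale.Agent.P069.X_separable, Vale.Agent.P069.X_infinite, Vale.Agent.P069.refl_X, ?_, ?_, ?_⟩
  · intro t ht
    refine lt_of_lt_of_le ?_ (key t ht)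
    rw [← EReal.coe_zero, EReal.coe_lt_coe_iff]
    positivity
  · intro t ht ht1
    refine le_trans ?_ (key t ht)
    rw [EReal.coe_le_coe_iff]
    rw [div_le_div_iff₀ (by norm_num) (by positivity)]
    nlinarith [sq_nonneg t]
  · rintro ⟨M, ⟨a, b, ha, hM⟩, hA⟩
    have hb : 0 < b := by
      have h1 := hM (Vale.Agent.P069.eX 0 [])
      have h3 := Vale.Agent.P069.one_le_eX 0 []
      by_contra hb
      nlinarith [h1.1, h1.2]
    have ht0 : 0 < a / (2 * b) := by positivity
    obtain ⟨δ, hδ1, hδ2⟩ := EReal.lt_iff_exists_real_btwn.1 (hA _ ht0)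
    rw [← EReal.coe_zero, EReal.coe_lt_coe_iff] at hδ1
    refine Vale.Agent.P069.no_auc M a b δ ha hδ1 (fun x => (hM x).1) (fun x => (hM x).2) ?_
    intro x hx
    have h1 := lt_of_lt_of_le hδ2 (iInf_le _ (⟨x, hx⟩ : {x : Vale.Agent.P069.X // M x = 1}))
    obtain ⟨F, hF⟩ := lt_iSup_iff.1 h1
    refine ⟨F.1, F.2.1, F.2.2, fun y hy hy1 => ?_⟩
    have h2 := lt_of_lt_of_le hF
      (iInf_le _ (⟨y, hy, hy1⟩ : {y : Vale.Agent.P069.X // y ∈ F.1 ∧ M y = 1}))
    have h3 := EReal.coe_lt_coe_iff.1 h2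
    simp only at h3
    linarith

end Vale.Agent.Results.P069.Counterexample
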